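import Vale.Agent.P284.H894.G.Spec
import Mathlib.Topology.Homotopy.Lifting
import Mathlib.Analysis.Calculus.ContDiff.RCLike
import Mathlib.Geometry.Manifold.ContMDiff.Basic
import Mathlib.Analysis.Normed.Module.Connected

/-!
# P284, block G8: bounded plurisubharmonic functions on a covering are constant along the lifts of
chains of entire curves
-/

open scoped Manifold ContDiff Topology Pointwise
open Filter Set Metric

noncomputable section

namespace Vale.Agent.P284.H622

open Vale.Agent.P272.K Vale.Agent.P284.H894.G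

section
variable {n : ℕ} {X : Type} [TopologicalSpace X] [ChartedSpace (Cm n) X]
  [IsManifold 𝓘(ℂ, Cm n) ω X] {E : Type} [TopologicalSpace E]

/-- an entire curve is holomorphic in every chart -/
theorem contDiffAt_chart {f : ℂ → X} {z : ℂ} (hf : ContMDiffAt 𝓘(ℂ) 𝓘(ℂ, Cm n) ω f z)
    {e : Chart n X} (he : At e (f z)) : ContDiffAt ℂ ω (fun w => e (f w)) z := by
  have h1 := (contMDiffAt_iff_of_mem_maximalAtlas (I := 𝓘(ℂ)) (I' := 𝓘(ℂ, Cm n)) (n := ω)
    (f := f) (x := z) (e := OpenPartialHomeomorph.refl ℂ) (e' := e)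
    (IsManifold.chart_mem_maximalAtlas z)
    (IsManifold.subset_maximalAtlas he.1) (mem_univ _) he.2).1 hf
  have h2 := h1.2
  simp only [mfld_simps, OpenPartialHomeomorph.extend] at h2
  exact contDiffWithinAt_univ.1 (by simpa [Function.comp_def] using h2)

/-- translated discs `t ↦ F (t + c)` of the lift of an entire curve -/
theorem isDisc_lift {p : E → X} {f : ℂ → X} (hf : ContMDiff 𝓘(ℂ) 𝓘(ℂ, Cm n) ω f)
    {F : ℂ → E} (hF : Continuous F) (hp : ∀ z, p (F z) = f z) (c : ℂ) :
    IsDisc (n := n) p fun t : ℂ => F (t + c) := by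
  constructor
  · have : Continuous fun t : ℂ => F (t + c) := hF.comp (by fun_prop)
    exact this.continuousOn
  · intro t _ e he
    simp only [hp] at he ⊢
    have h1 : DifferentiableAt ℂ (fun w' => e (f w')) (t + c) :=
      (contDiffAt_chart (hf _) he).differentiableAt (by simp)
    exact DifferentiableAt.comp (f := fun s : ℂ => s + c) (g := fun w' => e (f w')) t h1
      (by fun_prop)

/-- a bounded plurisubharmonic function is constant along the lift of an entire curve -/
theorem const_of_lift (h7 : G7Stmt) {p : E → X} {f : ℂ → X}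
    (hf : ContMDiff 𝓘(ℂ) 𝓘(ℂ, Cm n) ω f)
    {F : ℂ → E} (hF : Continuous F) (hp : ∀ z, p (F z) = f z) {u : E → ℝ}
    (hu : IsPsh (n := n) p u) (hb : ∃ B : ℝ, ∀ y, |u y| ≤ B) (z z' : ℂ) :
    u (F z') = u (F z) := by
  refine h7 (fun s : ℂ => u (F s)) ?_ ?_ ?_ z' z
  · exact UpperSemicontinuous.comp (g := F) hu.usc hF
  · obtain ⟨B, hB⟩ := hb
    exact ⟨B, fun s => hB _⟩
  · intro c
    obtain ⟨δ, hδ, hm⟩ := hu.mean _ (isDisc_lift hf hF hp c)
    refine ⟨δ, hδ, fun ρ hρ => ?_⟩
    have h1 := hm ρ hρ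
    rw [← Real.circleAverage_map_add_const]
    simpa only [zero_add] using h1

end

/-- **G8** -/
theorem g8Stmt : G8Stmt := by
  intro h7 n X i1 i2 i3 i4 E i5 p hp _ y q hq
  induction hq with
  | refl => exact ⟨y, rfl, fun u _ _ => rfl⟩
  | @tail b c _ hbc ih =>
    obtain ⟨yb, hyb, hub⟩ := ih
    obtain ⟨f, hf, hf0, hf1⟩ := hbc
    obtain ⟨F, ⟨hF0, hF⟩, -⟩ := hp.existsUnique_continuousMap_lifts
      (⟨f, hf.continuous⟩ : C(ℂ, X)) 0 yb (hyb.trans hf0.symm)
    have hpF : ∀ z, p (F z) = f z := fun z => congrFun hF z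
    refine ⟨F 1, (hpF 1).trans hf1, fun u hu hb => ?_⟩
    rw [const_of_lift h7 hf F.continuous hpF hu hb 0 1, hF0, hub u hu hb]

end Vale.Agent.P284.H622
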