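import Vale.Agent.P284.H894.G.Spec
import Vale.Agent.P300.H673.UC
import Vale.Agent.P223.R2.H968.Lift
import Mathlib.Topology.Homotopy.Lifting

/-!
# P284, block G9: the universal covering and the growth of the fundamental group
-/

open scoped Manifold ContDiff Topology Pointwise
open Filter Set Metric

noncomputable section

namespace Vale.Agent.P284.H622

open Vale.Agent.P272.K Vale.Agent.P284.H248 Vale.Agent.P284.H894 Vale.Agent.P284.H894.G

/-! ### growth and the opposite group -/

theorem subexp_of_image {A B : Type*} [Group A] [Group B] (f : A →* B)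
    (hf : Function.Injective f) {S : Set A} (h : Subexp (f '' S)) : Subexp S := by
  intro ε hε
  obtain ⟨C, hC⟩ := h ε hε
  refine ⟨C, fun k => ?_⟩
  have h1 := hC k
  rwa [← Set.image_pow, Set.ncard_image_of_injective _ hf] at h1

theorem unop_image_pow {A : Type*} [Group A] (S : Set Aᵐᵒᵖ) (k : ℕ) :
    MulOpposite.unop '' (S ^ k) = (MulOpposite.unop '' S) ^ k := by
  induction k with
  | zero => simp [Set.singleton_one]
  | succ k ih =>
    rw [pow_succ, pow_succ', ← ih]
    ext x
    constructor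
    · rintro ⟨_, ⟨a, ha, b, hb, rfl⟩, rfl⟩
      exact ⟨b.unop, ⟨b, hb, rfl⟩, a.unop, ⟨a, ha, rfl⟩, rfl⟩
    · rintro ⟨_, ⟨b, hb, rfl⟩, _, ⟨a, ha, rfl⟩, rfl⟩
      exact ⟨a * b, ⟨a, ha, b, hb, rfl⟩, rfl⟩

theorem subexp_op {A : Type*} [Group A] {S : Set Aᵐᵒᵖ} (h : Subexp (MulOpposite.unop '' S)) :
    Subexp S := by
  intro ε hε
  obtain ⟨C, hC⟩ := h ε hε
  refine ⟨C, fun k => ?_⟩
  have h1 := hC k
  rwa [← unop_image_pow, Set.ncard_image_of_injective _ MulOpposite.unop_injective] at h1

theorem subexpGrowth_of_equiv {A B : Type*} [Group A] [Group B] (e : A ≃* Bᵐᵒᵖ)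
    (h : SubexpGrowth B) : SubexpGrowth A := by
  intro S hS
  refine subexp_of_image e.toMonoidHom e.injective ?_
  exact subexp_op (h _ ((hS.image _).image _))

/-! ### the component of `p⁻¹ U` -/

/-- if every loop at `p y` can be moved into `U`, then all points of the fibre of `y` lie in one
component of `p⁻¹ U` -/
theorem mem_comp {X Y : Type} [TopologicalSpace X] [TopologicalSpace Y] [PathConnectedSpace Y]
    {p : Y → X} (hp : IsCoveringMap p) {U : Set X} {y y' : Y} (hy : p y' = p y)
    (hU : ∀ c : Path (p y) (p y), ∃ c' : Path (p y) (p y), c.Homotopic c' ∧ ∀ t, c' t ∈ U) :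
    y' ∈ connectedComponentIn (p ⁻¹' U) y := by
  obtain ⟨w⟩ : Nonempty (Path y y') := PathConnectedSpace.joined y y'
  obtain ⟨c', hc', hc'U⟩ := hU ((w.map hp.continuous).cast rfl hy.symm)
  have h0 : ((w.map hp.continuous).cast rfl hy.symm : Path (p y) (p y)) 0 = p y := Path.source _
  have h1 := hp.liftPath_apply_one_eq_of_homotopicRel
    (γ₀ := ((w.map hp.continuous).cast rfl hy.symm : Path (p y) (p y)).toContinuousMap)
    (γ₁ := c'.toContinuousMap) hc' y h0 c'.source
  have h2 : w.toContinuousMap = hp.liftPath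
      ((w.map hp.continuous).cast rfl hy.symm : Path (p y) (p y)).toContinuousMap y h0 := by
    rw [hp.eq_liftPath_iff']
    exact ⟨rfl, w.source⟩
  rw [← h2] at h1
  have h3 : y' = hp.liftPath c'.toContinuousMap y c'.source 1 := by
    rw [← h1]
    exact w.target.symm
  set F := hp.liftPath c'.toContinuousMap y c'.source with hF
  have h4 : IsPreconnected (range F) := isPreconnected_range F.continuous
  have h5 : range F ⊆ p ⁻¹' U := by
    rintro _ ⟨t, rfl⟩
    have h6 : p (F t) = c' t := congrFun (hp.liftPath_lifts c'.toContinuousMap y c'.source) t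
    show p (F t) ∈ U
    rw [h6]
    exact hc'U t
  have h6 : y ∈ range F := ⟨0, hp.liftPath_zero c'.toContinuousMap y c'.source⟩
  rw [h3]
  exact h4.subset_connectedComponentIn h6 h5 ⟨1, rfl⟩

/-- a covering space of a manifold is locally connected -/
theorem locallyConnected {n : ℕ} {X Y : Type} [TopologicalSpace X] [ChartedSpace (Cm n) X]
    [TopologicalSpace Y] {p : Y → X} (hp : IsLocalHomeomorph p) : LocallyConnectedSpace Y := by
  choose q hq hpq using hp
  let _ : ChartedSpace (Cm n) Y :=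
    { atlas := range fun y => (q y).trans (chartAt (Cm n) (p y))
      chartAt := fun y => (q y).trans (chartAt (Cm n) (p y))
      mem_chart_source := fun y => by
        rw [OpenPartialHomeomorph.trans_source]
        refine ⟨hq y, ?_⟩
        show q y y ∈ (chartAt (Cm n) (p y)).source
        rw [← hpq y]
        exact mem_chart_source (Cm n) (p y)
      chart_mem_atlas := fun y => mem_range_self y }
  exact ChartedSpace.locallyConnectedSpace (Cm n) Y

/-- **G9** -/
theorem g9Stmt : G9Stmt := by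
  intro h6 h8 h11 h12 h0 h5 n X iT iT2 iC iCn iCh iM L hL U x Q hUo hx hU hQ hQU
  obtain ⟨N, hN⟩ := Vale.Agent.P300.H673.exists_openEmbedding (Cm n) X
  obtain ⟨Y, Γ, tY, gΓ, aΓ, π, hsc, ht2, hcont, hfree, hcov, hsurj, horb⟩ :=
    Vale.Agent.P223.X.U.main N X hN
  have hcont' : ∀ γ : Γ, Continuous fun y : Y => γ • y := hcont
  have q := Vale.Agent.P223.R2.H968.Lift.quot π hcont hfree hcov hsurj horb
  obtain ⟨y0, rfl⟩ := hsurj x
  have e : FundamentalGroup X (π y0) ≃* Γᵐᵒᵖ :=
    q.fundamentalGroupEquiv (⟨y0, rfl⟩ : π ⁻¹' {π y0})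
  have hG : IsGalois Γ (π : Y → X) := ⟨hcov, hsurj, hcont', hfree, horb⟩
  have hpc : PathConnectedSpace Y := inferInstance
  refine subexpGrowth_of_equiv e fun S hS => ?_
  by_contra hexp
  -- `Γ` is countable
  have : Nonempty X := ⟨π y0⟩
  have hΓ : Countable Γ := by
    obtain ⟨P, a, -⟩ := h0 n X L (π y0)
    choose yy hyy using fun a : P.I => hsurj ((P.e a).symm (P.c a))
    obtain ⟨K, -⟩ := h5 n X L P Y Γ π hG yy hyy
    exact h12 n X L P Γ K
  -- the component
  have hlc : LocallyConnectedSpace Y := locallyConnected (n := n) hcov.isLocalHomeomorph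
  have hVo : IsOpen (connectedComponentIn (π ⁻¹' U) y0) :=
    (hUo.preimage hcov.continuous).connectedComponentIn
  have hVp : IsPreconnected (connectedComponentIn (π ⁻¹' U) y0) :=
    isPreconnected_connectedComponentIn
  have hV0 : ∀ t : Γ, t • y0 ∈ connectedComponentIn (π ⁻¹' U) y0 := fun t =>
    mem_comp hcov ((horb _ _).2 ⟨t, rfl⟩).symm hU
  have hW : (⋂ t ∈ S, (fun y : Y => t • y) ⁻¹' connectedComponentIn (π ⁻¹' U) y0) ∈ 𝓝 y0 := by
    rw [biInter_mem hS]
    exact fun t _ => (hcont' t).continuousAt.preimage_mem_nhds (hVo.mem_nhds (hV0 t))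
  obtain ⟨t, ht, u, hu, hu01, y', hy', hlt⟩ := h6 n X L hL Y Γ π hG S hS hexp y0 _ hW
  have hy'V : t • y' ∈ connectedComponentIn (π ⁻¹' U) y0 := by
    have := mem_iInter₂.1 hy' t ht
    exact this
  have hb : ∃ B : ℝ, ∀ y, |u y| ≤ B :=
    ⟨1, fun y => abs_le.2 ⟨by linarith [(hu01 y).1], (hu01 y).2⟩⟩
  have hcount : (u '' connectedComponentIn (π ⁻¹' U) y0).Countable := by
    have hfib : (π ⁻¹' Q).Countable := by
      rw [← biUnion_of_singleton Q, preimage_iUnion₂]
      refine hQ.biUnion fun q _ => ?_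
      rcases (π ⁻¹' {q}).eq_empty_or_nonempty with h | ⟨z, hz⟩
      · rw [h]; exact countable_empty
      · refine (countable_range fun γ : Γ => γ • z).mono fun z' hz' => ?_
        have h7 : π z = π z' := (mem_singleton_iff.1 hz).trans (mem_singleton_iff.1 hz').symm
        obtain ⟨γ, hγ⟩ := (horb _ _).1 h7
        exact ⟨γ, hγ⟩
    refine (hfib.image u).mono ?_
    rintro _ ⟨y, hy, rfl⟩
    have hyU : π y ∈ U := by
      have := connectedComponentIn_subset (π ⁻¹' U) y0 hy
      exact this
    obtain ⟨q, hq, hch⟩ := hQU _ hyU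
    obtain ⟨z, hz, huz⟩ := h8 n X Y π hcov hsurj y q hch
    exact ⟨z, by show π z ∈ Q; rw [hz]; exact hq, huz u hu hb⟩
  have h9 := h11 n X Y π hcov u hu hb _ hVo hVp hcount y0
    (by simpa using hV0 1) _ hy'V
  linarith

end Vale.Agent.P284.H622
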