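import Mathlib.Analysis.Complex.LocallyUniformLimit
import Mathlib.Analysis.Complex.Liouville
import Mathlib.Analysis.Complex.Schwarz
import Mathlib.Analysis.Calculus.SmoothSeries
import Mathlib.Analysis.Calculus.IteratedDeriv.Lemmas

/-!
# P284, blocks D1 + D2 (helper622): general lemmas on series

Series of holomorphic functions, iterated derivatives of such series, Young's inequality
`ℓ² * ℓ¹ ⊆ ℓ²` on a group and the peak argument.
-/

open scoped Topology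
open Filter Set Metric

noncomputable section

namespace Vale.Agent.P284.H622

section
variable {E : Type*} [NormedAddCommGroup E] [NormedSpace ℂ E]

theorem norm_fderiv_le_of_ball {f : E → ℂ} {x : E} {r B : ℝ} (hr : 0 < r)
    (hf : DifferentiableOn ℂ f (ball x r)) (hb : ∀ y ∈ ball x r, ‖f y‖ ≤ B) :
    ‖fderiv ℂ f x‖ ≤ 2 * B / r := by
  refine Complex.norm_fderiv_le_div_of_mapsTo_ball (R₂ := 2 * B) hf ?_ hr
  intro y hy
  rw [mem_closedBall, dist_eq_norm]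
  calc ‖f y - f x‖ ≤ ‖f y‖ + ‖f x‖ := norm_sub_le _ _
    _ ≤ 2 * B := by linarith [hb y hy, hb x (mem_ball_self hr)]

/-- A series of holomorphic functions on an open set, dominated by a summable sequence. -/
theorem differentiableOn_tsum {ι : Type*} {f : ι → E → ℂ} {U : Set E} (hU : IsOpen U)
    (hf : ∀ i, DifferentiableOn ℂ (f i) U) {u : ι → ℝ} (hu : Summable u)
    (hb : ∀ i, ∀ z ∈ U, ‖f i z‖ ≤ u i) :
    DifferentiableOn ℂ (fun z => ∑' i, f i z) U := by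
  intro z₀ hz₀
  obtain ⟨r, hr, hrU⟩ := Metric.isOpen_iff.1 hU z₀ hz₀
  have hsub : ∀ x ∈ ball z₀ (r / 2), ball x (r / 2) ⊆ ball z₀ r := by
    intro x hx
    apply ball_subset_ball'
    rw [mem_ball] at hx
    linarith
  have hsub' : ball z₀ (r / 2) ⊆ ball z₀ r := ball_subset_ball (by linarith)
  have hd : ∀ i, ∀ x ∈ ball z₀ (r / 2), HasFDerivAt (f i) (fderiv ℂ (f i) x) x := fun i x hx =>
    ((hf i).differentiableAt (hU.mem_nhds (hrU (hsub' hx)))).hasFDerivAt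
  have hbd : ∀ i, ∀ x ∈ ball z₀ (r / 2), ‖fderiv ℂ (f i) x‖ ≤ 2 * u i / (r / 2) := by
    intro i x hx
    exact norm_fderiv_le_of_ball (by positivity) ((hf i).mono ((hsub x hx).trans hrU))
      fun y hy => hb i y (hrU (hsub x hx hy))
  have hu' : Summable fun i => 2 * u i / (r / 2) := (hu.mul_left 2).div_const _
  have hconn : IsPreconnected (ball z₀ (r / 2)) := by
    have : NormedSpace ℝ E := NormedSpace.restrictScalars ℝ ℂ E
    exact (convex_ball z₀ (r / 2)).isPreconnected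
  have hz₀' : z₀ ∈ ball z₀ (r / 2) := mem_ball_self (by positivity)
  have h0 : Summable fun i => f i z₀ := Summable.of_norm_bounded hu fun i => hb i z₀ hz₀
  exact (hasFDerivAt_tsum_of_isPreconnected hu' isOpen_ball hconn hd hbd hz₀' h0
    hz₀').differentiableAt.differentiableWithinAt

end

theorem differentiableOn_iteratedDeriv {f : ℂ → ℂ} {U : Set ℂ} (hU : IsOpen U)
    (hf : DifferentiableOn ℂ f U) (k : ℕ) : DifferentiableOn ℂ (iteratedDeriv k f) U := by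
  induction k with
  | zero => simpa [iteratedDeriv_zero] using hf
  | succ k ih =>
    rw [iteratedDeriv_succ]
    exact ih.deriv hU

/-- Iterated derivatives of a dominated series of holomorphic functions. -/
theorem hasSum_iteratedDeriv {ι : Type*} {F : ι → ℂ → ℂ} {U : Set ℂ} (hU : IsOpen U)
    (hF : ∀ i, DifferentiableOn ℂ (F i) U) {u : ι → ℝ} (hu : Summable u)
    (hb : ∀ i, ∀ w ∈ U, ‖F i w‖ ≤ u i) (k : ℕ) {z : ℂ} (hz : z ∈ U) :
    HasSum (fun i => iteratedDeriv k (F i) z) (iteratedDeriv k (fun w => ∑' i, F i w) z) := by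
  have key : TendstoLocallyUniformlyOn
      (fun (s : Finset ι) => iteratedDeriv k (fun w => ∑ i ∈ s, F i w))
      (iteratedDeriv k (fun w => ∑' i, F i w)) atTop U := by
    induction k with
    | zero =>
      simpa [iteratedDeriv_zero] using (tendstoUniformlyOn_tsum hu hb).tendstoLocallyUniformlyOn
    | succ k ih =>
      have h := ih.deriv (Eventually.of_forall fun s => differentiableOn_iteratedDeriv hU
        (DifferentiableOn.fun_sum fun i _ => hF i) k) hU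
      rw [iteratedDeriv_succ]
      refine h.congr ?_
      intro s x _
      simp only [Function.comp_apply, iteratedDeriv_succ]
  rw [HasSum]
  have h := key.tendsto_at hz
  refine h.congr fun s => ?_
  refine iteratedDeriv_fun_sum fun i _ => ?_
  exact ((hF i).analyticAt (hU.mem_nhds hz)).contDiffAt

/-- Young's inequality on a group, for the exponents `2` and `1`. -/
theorem young {Γ : Type*} [Group Γ] {C ρ : Γ → ℝ} (hρ0 : ∀ h, 0 ≤ ρ h)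
    (hC : Summable fun h => C h ^ 2) (hρ : Summable ρ) :
    ∃ R : Γ → ℝ, (∀ γ, 0 ≤ R γ) ∧ Summable (fun γ => R γ ^ 2) ∧
      ∀ γ (s : Finset Γ), ∑ h ∈ s, C h * ρ (h⁻¹ * γ) ≤ R γ := by
  classical
  have hprod : Summable fun p : Γ × Γ => C p.1 ^ 2 * ρ p.2 :=
    Summable.mul_of_nonneg hC hρ (fun h => sq_nonneg _) hρ0
  let e : Γ × Γ ≃ Γ × Γ :=
    { toFun := fun q => (q.2, q.2⁻¹ * q.1)
      invFun := fun p => (p.1 * p.2, p.1)
      left_inv := fun q => by simp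
      right_inv := fun p => by simp }
  have hprod2 : Summable fun q : Γ × Γ => C q.2 ^ 2 * ρ (q.2⁻¹ * q.1) :=
    (e.summable_iff (f := fun p : Γ × Γ => C p.1 ^ 2 * ρ p.2)).2 hprod
  set P : ℝ := ∑' h, ρ h with hP
  have hP0 : 0 ≤ P := tsum_nonneg hρ0
  set T : Γ → ℝ := fun γ => ∑' h, C h ^ 2 * ρ (h⁻¹ * γ) with hT
  have hTs : Summable T := hprod2.prod
  have hT1 : ∀ γ, Summable fun h => C h ^ 2 * ρ (h⁻¹ * γ) := fun γ => hprod2.prod_factor γ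
  have hT0 : ∀ γ, 0 ≤ T γ := fun γ => tsum_nonneg fun h => mul_nonneg (sq_nonneg _) (hρ0 _)
  refine ⟨fun γ => Real.sqrt (T γ * P), fun γ => Real.sqrt_nonneg _, ?_, ?_⟩
  · refine (hTs.mul_right P).congr fun γ => ?_
    rw [Real.sq_sqrt (mul_nonneg (hT0 γ) hP0)]
  · intro γ s
    refine Real.le_sqrt_of_sq_le ?_
    have h1 : ∑ h ∈ s, C h * ρ (h⁻¹ * γ) =
        ∑ h ∈ s, (C h * Real.sqrt (ρ (h⁻¹ * γ))) * Real.sqrt (ρ (h⁻¹ * γ)) := by
      refine Finset.sum_congr rfl fun h _ => ?_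
      rw [mul_assoc, Real.mul_self_sqrt (hρ0 _)]
    rw [h1]
    refine (Finset.sum_mul_sq_le_sq_mul_sq _ _ _).trans ?_
    have h2 : ∑ h ∈ s, (C h * Real.sqrt (ρ (h⁻¹ * γ))) ^ 2 ≤ T γ := by
      have : ∀ h ∈ s, (C h * Real.sqrt (ρ (h⁻¹ * γ))) ^ 2 = C h ^ 2 * ρ (h⁻¹ * γ) := by
        intro h _
        rw [mul_pow, Real.sq_sqrt (hρ0 _)]
      rw [Finset.sum_congr rfl this]
      exact (hT1 γ).sum_le_tsum s fun h _ => mul_nonneg (sq_nonneg _) (hρ0 _)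
    have h3 : ∑ h ∈ s, Real.sqrt (ρ (h⁻¹ * γ)) ^ 2 ≤ P := by
      have : ∀ h ∈ s, Real.sqrt (ρ (h⁻¹ * γ)) ^ 2 = ρ (h⁻¹ * γ) := fun h _ =>
        Real.sq_sqrt (hρ0 _)
      rw [Finset.sum_congr rfl this]
      have hinj : Set.InjOn (fun h : Γ => h⁻¹ * γ) s := by
        intro x _ y _ hxy
        simpa using hxy
      rw [← Finset.sum_image (f := ρ) hinj]
      exact hρ.sum_le_tsum _ fun h _ => hρ0 _
    exact mul_le_mul h2 h3 (Finset.sum_nonneg fun h _ => sq_nonneg _) (hT0 γ)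

/-- The peak argument. -/
theorem peak_of_max {Γ : Type*} [Group Γ] {α : Γ → ℂ} (hα : Summable fun γ => ‖α γ‖)
    (h1 : α 1 ≠ 0) (hA : ∑' γ, ‖α γ‖ ≤ (4 / 3) * ‖α 1‖) {S : Finset Γ} {c : Γ → Γ → ℂ}
    (hc0 : ∀ h g, g ∉ S → c h g = 0) (h₀ g₀ : Γ) (hpos : c h₀ g₀ ≠ 0)
    (hle : ∀ h g, ‖c h g‖ ≤ ‖c h₀ g₀‖) :
    ∑' h, ∑ g ∈ S, c h g * (α (h⁻¹ * h₀) * α (g⁻¹ * (h⁻¹ * (h₀ * g₀)))) ≠ 0 := by
  classical
  set M : ℝ := ‖c h₀ g₀‖ with hM
  have hMpos : 0 < M := norm_pos_iff.2 hpos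
  let e : Γ × Γ ≃ Γ × Γ :=
    { toFun := fun p => (p.1⁻¹ * h₀, p.2⁻¹ * (p.1⁻¹ * (h₀ * g₀)))
      invFun := fun q => (h₀ * q.1⁻¹, (h₀ * q.1⁻¹)⁻¹ * (h₀ * g₀) * q.2⁻¹)
      left_inv := fun p => by
        ext <;> simp [mul_assoc]
      right_inv := fun q => by
        ext <;> simp [mul_assoc] }
  have hy0 : Summable fun q : Γ × Γ => ‖α q.1‖ * ‖α q.2‖ :=
    Summable.mul_of_nonneg hα hα (fun _ => norm_nonneg _) fun _ => norm_nonneg _
  have hyt0 : ∑' q : Γ × Γ, ‖α q.1‖ * ‖α q.2‖ = (∑' γ, ‖α γ‖) * ∑' γ, ‖α γ‖ :=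
    (hα.tsum_mul_tsum hα hy0).symm
  set y : Γ × Γ → ℝ := fun p => ‖α (p.1⁻¹ * h₀)‖ * ‖α (p.2⁻¹ * (p.1⁻¹ * (h₀ * g₀)))‖ with hy
  have hys : Summable y := (e.summable_iff (f := fun q : Γ × Γ => ‖α q.1‖ * ‖α q.2‖)).2 hy0
  have hyt : ∑' p, y p = (∑' γ, ‖α γ‖) * ∑' γ, ‖α γ‖ := by
    rw [← hyt0]
    exact e.tsum_eq (fun q : Γ × Γ => ‖α q.1‖ * ‖α q.2‖)
  set x : Γ × Γ → ℂ := fun p => c p.1 p.2 *
    (α (p.1⁻¹ * h₀) * α (p.2⁻¹ * (p.1⁻¹ * (h₀ * g₀)))) with hx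
  have hxy : ∀ p, ‖x p‖ ≤ M * y p := by
    intro p
    simp only [hx, hy, norm_mul]
    exact mul_le_mul_of_nonneg_right (hle _ _) (by positivity)
  have hxs : Summable x := Summable.of_norm_bounded (hys.mul_left M) hxy
  have hxt : ∑' h, ∑ g ∈ S, c h g * (α (h⁻¹ * h₀) * α (g⁻¹ * (h⁻¹ * (h₀ * g₀)))) = ∑' p, x p := by
    rw [hxs.tsum_prod]
    refine tsum_congr fun h => ?_
    symm
    refine tsum_eq_sum fun g hg => ?_
    simp [hx, hc0 h g hg]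
  rw [hxt]
  intro hzero
  have hsplit := hxs.tsum_eq_add_tsum_ite (h₀, g₀)
  have hysplit := hys.tsum_eq_add_tsum_ite (h₀, g₀)
  have hx0 : ‖x (h₀, g₀)‖ = M * (‖α 1‖ * ‖α 1‖) := by
    simp [hx, hM]
  have hy0' : y (h₀, g₀) = ‖α 1‖ * ‖α 1‖ := by simp [hy]
  rw [hzero] at hsplit
  have hbound : ‖∑' p, (if p = (h₀, g₀) then 0 else x p)‖ ≤
      M * ∑' p, (if p = (h₀, g₀) then 0 else y p) := by
    have hs : Summable fun p => (if p = (h₀, g₀) then 0 else y p) := by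
      refine Summable.of_nonneg_of_le (fun p => ?_) (fun p => ?_) hys
      · split_ifs
        · exact le_refl _
        · simp only [hy]; positivity
      · split_ifs
        · simp only [hy]; positivity
        · exact le_refl _
    rw [← tsum_mul_left]
    refine tsum_of_norm_bounded (hs.mul_left M).hasSum fun p => ?_
    split_ifs
    · simp
    · exact hxy p
  have h3 : M * (‖α 1‖ * ‖α 1‖) ≤ M * ∑' p, (if p = (h₀, g₀) then 0 else y p) := by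
    rw [← hx0]
    have : x (h₀, g₀) = - ∑' p, (if p = (h₀, g₀) then 0 else x p) := by
      linear_combination -hsplit
    rw [this, norm_neg]
    exact hbound
  have h4 : ‖α 1‖ * ‖α 1‖ ≤ ∑' p, (if p = (h₀, g₀) then 0 else y p) :=
    le_of_mul_le_mul_left h3 hMpos
  rw [hyt, hy0'] at hysplit
  have h5 : (∑' γ, ‖α γ‖) * ∑' γ, ‖α γ‖ ≤ ((4 / 3) * ‖α 1‖) * ((4 / 3) * ‖α 1‖) :=
    mul_le_mul hA hA (tsum_nonneg fun _ => norm_nonneg _) (by positivity)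
  have h6 : 0 < ‖α 1‖ * ‖α 1‖ := by
    have := norm_pos_iff.2 h1
    positivity
  nlinarith

/-- The peak argument, square summable coefficients. -/
theorem peak {Γ : Type*} [Group Γ] {α : Γ → ℂ} (hα : Summable fun γ => ‖α γ‖) (h1 : α 1 ≠ 0)
    (hA : ∑' γ, ‖α γ‖ ≤ (4 / 3) * ‖α 1‖) {S : Finset Γ} {c : Γ → Γ → ℂ}
    (hc0 : ∀ h g, g ∉ S → c h g = 0) (hc1 : ∃ h g, c h g ≠ 0)
    (hc2 : Summable fun h => ∑ g ∈ S, ‖c h g‖ ^ 2) :
    ∃ γ γ' : Γ, ∑' h, ∑ g ∈ S, c h g * (α (h⁻¹ * γ) * α (g⁻¹ * (h⁻¹ * γ'))) ≠ 0 := by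
  classical
  obtain ⟨h₁, g₁, hh⟩ := hc1
  have hδ : 0 < ‖c h₁ g₁‖ ^ 2 := by positivity
  -- the maximum of `‖c h g‖`
  have hfin : {p : Γ × Γ | ‖c h₁ g₁‖ ≤ ‖c p.1 p.2‖}.Finite := by
    have hf : {h : Γ | ¬ (∑ g ∈ S, ‖c h g‖ ^ 2 < ‖c h₁ g₁‖ ^ 2)}.Finite :=
      (hc2.tendsto_cofinite_zero.eventually (gt_mem_nhds hδ))
    refine (hf.prod S.finite_toSet).subset ?_
    rintro ⟨h, g⟩ hp
    simp only [mem_ofPred_eq] at hp
    have hg : g ∈ S := by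
      by_contra hg
      rw [hc0 h g hg, norm_zero] at hp
      exact absurd hp (not_le.2 (norm_pos_iff.2 hh))
    refine ⟨?_, hg⟩
    simp only [mem_ofPred_eq, not_lt]
    calc ‖c h₁ g₁‖ ^ 2 ≤ ‖c h g‖ ^ 2 := by gcongr
      _ ≤ ∑ g ∈ S, ‖c h g‖ ^ 2 :=
        Finset.single_le_sum (f := fun g => ‖c h g‖ ^ 2) (fun _ _ => sq_nonneg _) hg
  obtain ⟨⟨h₀, g₀⟩, hp₀, hmax⟩ := Set.exists_max_image _ (fun p : Γ × Γ => ‖c p.1 p.2‖) hfin
    ⟨(h₁, g₁), by simp⟩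
  simp only [mem_ofPred_eq] at hp₀
  have hpos : c h₀ g₀ ≠ 0 := norm_pos_iff.1 (lt_of_lt_of_le (norm_pos_iff.2 hh) hp₀)
  have hle : ∀ h g, ‖c h g‖ ≤ ‖c h₀ g₀‖ := by
    intro h g
    by_cases hp : ‖c h₁ g₁‖ ≤ ‖c h g‖
    · exact hmax (h, g) hp
    · exact (not_le.1 hp).le.trans hp₀
  exact ⟨h₀, h₀ * g₀, peak_of_max hα h1 hA hc0 h₀ g₀ hpos hle⟩

/-- The peak argument, coefficients invariant under the group. -/
theorem peak' {Γ : Type*} [Group Γ] {α : Γ → ℂ} (hα : Summable fun γ => ‖α γ‖) (h1 : α 1 ≠ 0)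
    (hA : ∑' γ, ‖α γ‖ ≤ (4 / 3) * ‖α 1‖) {S : Finset Γ} {c : Γ → ℂ}
    (hc0 : ∀ g, g ∉ S → c g = 0) (hc1 : ∃ g, c g ≠ 0) :
    ∃ γ γ' : Γ, ∑' h, ∑ g ∈ S, c g * (α (h⁻¹ * γ) * α (g⁻¹ * (h⁻¹ * γ'))) ≠ 0 := by
  obtain ⟨g₁, hg₁⟩ := hc1
  have hg₁S : g₁ ∈ S := by
    by_contra h
    exact hg₁ (hc0 g₁ h)
  obtain ⟨g₀, hg₀, hmax⟩ := S.exists_max_image (fun g => ‖c g‖) ⟨g₁, hg₁S⟩
  have hpos : c g₀ ≠ 0 :=
    norm_pos_iff.1 (lt_of_lt_of_le (norm_pos_iff.2 hg₁) (hmax g₁ hg₁S))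
  refine ⟨1, 1 * g₀, peak_of_max (c := fun _ g => c g) hα h1 hA (fun _ g hg => hc0 g hg) 1 g₀
    hpos fun _ g => ?_⟩
  by_cases hg : g ∈ S
  · exact hmax g hg
  · simp only [hc0 g hg, norm_zero]
    exact norm_nonneg _

end Vale.Agent.P284.H622
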