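import Vale.Agent.P284.H894.SpecSub
import Vale.Agent.P284.H622.Gen
import Mathlib.Algebra.Order.Chebyshev

/-!
# P284, blocks D1 and D2 (helper622)

The section `Σ c(h,g) (h s) ⊗ (h g s)` on the product of the covering with itself, and the
summability of the Taylor coefficients.
-/

open scoped Topology
open Filter Set Metric

noncomputable section

namespace Vale.Agent.P284.H622

open Vale.Agent.P272.K Vale.Agent.P284.H894

variable {n : ℕ} {Γ : Type} [Group Γ] {C : Coc n Γ} {m : ℕ} {s : HS C m} {ρ : Γ → ℝ}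

theorem isOpen_V (C : Coc n Γ) (a : C.I) : IsOpen (C.V a) := isOpen_ball

theorem center_mem_V (C : Coc n Γ) (a : C.I) : C.c a ∈ C.V a :=
  mem_ball_self (by have := C.r_pos a; positivity)

theorem rho_nonneg (hs : s.Small ρ) (γ : Γ) : 0 ≤ ρ γ := by
  obtain ⟨a⟩ := C.ne
  exact (norm_nonneg _).trans (hs.2 γ a _ (center_mem_V C a))

theorem rho_le (hs : s.Small ρ) (γ : Γ) : ρ γ ≤ ∑' γ, ρ γ :=
  hs.1.le_tsum γ fun h _ => rho_nonneg hs h

theorem summable_rho_inv_mul (hs : s.Small ρ) (γ : Γ) : Summable fun h => ρ (h⁻¹ * γ) :=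
  (((Equiv.inv Γ).trans (Equiv.mulRight γ)).summable_iff (f := ρ)).2 hs.1

theorem line_open (C : Coc n Γ) (a : C.I) (z v : Cm n) : IsOpen {t : ℂ | z + t • v ∈ C.V a} := by
  have hc : Continuous fun t : ℂ => z + t • v := by fun_prop
  exact (isOpen_V C a).preimage hc

theorem line_diff (s : HS C m) (γ : Γ) (a : C.I) (z v : Cm n) :
    DifferentiableOn ℂ (fun t : ℂ => s.F γ a (z + t • v)) {t : ℂ | z + t • v ∈ C.V a} := by
  have hc : DifferentiableOn ℂ (fun t : ℂ => z + t • v) {t : ℂ | z + t • v ∈ C.V a} := by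
    fun_prop
  exact (s.holo γ a).comp hc fun t ht => ht

/-- Cauchy's estimate on a line, uniform in the piece. -/
theorem exists_cauchy (hs : s.Small ρ) (a : C.I) (k : ℕ) (z : Cm n) (hz : z ∈ C.V a) (v : Cm n) :
    ∃ B : ℝ, 0 ≤ B ∧ ∀ γ, ‖iteratedDeriv k (fun t : ℂ => s.F γ a (z + t • v)) 0‖ ≤ B * ρ γ := by
  have h0 : (0 : ℂ) ∈ {t : ℂ | z + t • v ∈ C.V a} := by simpa using hz
  obtain ⟨r, hr, hrU⟩ := Metric.nhds_basis_closedBall.mem_iff.1 ((line_open C a z v).mem_nhds h0)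
  refine ⟨k.factorial / r ^ k, by positivity, fun γ => ?_⟩
  have h := Complex.norm_iteratedDeriv_le_of_forall_mem_sphere_norm_le (c := 0) (R := r)
    (C := ρ γ) (f := fun t : ℂ => s.F γ a (z + t • v)) k hr ?_ ?_
  · calc _ ≤ _ := h
      _ = k.factorial / r ^ k * ρ γ := by ring
  · refine DifferentiableOn.diffContOnCl ?_
    rw [closure_ball _ hr.ne']
    exact (line_diff s γ a z v).mono hrU
  · intro t ht
    exact hs.2 γ a _ (hrU (sphere_subset_closedBall ht))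

theorem d2Stmt : D2Stmt := by
  intro n Γ _ C m s ρ hs a k g z hz v
  obtain ⟨B, hB, hk⟩ := exists_cauchy hs a k z hz v
  refine Summable.of_nonneg_of_le (fun _ => norm_nonneg _) (fun u => ?_)
    (hs.1.mul_right (B * ∑' γ, ρ γ))
  rw [norm_mul]
  refine mul_le_mul (hs.2 u a z hz) ((hk _).trans ?_) (norm_nonneg _) (rho_nonneg hs u)
  exact mul_le_mul_of_nonneg_left (rho_le hs _) hB

/-- the term number `h` of the series -/
def trm (s : HS C m) (S : Finset Γ) (c : Γ → Γ → ℂ) (γ : Γ) (a : C.I) (γ' : Γ) (b : C.I)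
    (h : Γ) (z w : Cm n) : ℂ :=
  ∑ g ∈ S, c h g * (s.F (h⁻¹ * γ) a z * s.F (g⁻¹ * (h⁻¹ * γ')) b w)

/-- the sum of the series -/
def sig (s : HS C m) (S : Finset Γ) (c : Γ → Γ → ℂ) (γ : Γ) (a : C.I) (γ' : Γ) (b : C.I)
    (z w : Cm n) : ℂ :=
  ∑' h, trm s S c γ a γ' b h z w

theorem trm_le (hs : s.Small ρ) (S : Finset Γ) (c : Γ → Γ → ℂ) (γ : Γ) (a : C.I) (γ' : Γ)
    (b : C.I) (h : Γ) {z w : Cm n} (hz : z ∈ C.V a) (hw : w ∈ C.V b) :
    ‖trm s S c γ a γ' b h z w‖ ≤ (∑ g ∈ S, ‖c h g‖) * ρ (h⁻¹ * γ) * ∑' γ, ρ γ := by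
  refine (norm_sum_le _ _).trans ?_
  rw [Finset.sum_mul, Finset.sum_mul]
  refine Finset.sum_le_sum fun g _ => ?_
  rw [norm_mul, norm_mul, mul_assoc]
  refine mul_le_mul_of_nonneg_left ?_ (norm_nonneg _)
  exact mul_le_mul (hs.2 _ _ _ hz) ((hs.2 _ _ _ hw).trans (rho_le hs _)) (norm_nonneg _)
    (rho_nonneg hs _)

theorem exists_cbound {S : Finset Γ} {c : Γ → Γ → ℂ}
    (hc2 : Summable fun h => ∑ g ∈ S, ‖c h g‖ ^ 2) :
    ∃ B : ℝ, 0 ≤ B ∧ ∀ h, ∑ g ∈ S, ‖c h g‖ ≤ B := by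
  refine ⟨Real.sqrt (S.card * ∑' h, ∑ g ∈ S, ‖c h g‖ ^ 2), Real.sqrt_nonneg _, fun h => ?_⟩
  refine Real.le_sqrt_of_sq_le (sq_sum_le_card_mul_sum_sq.trans ?_)
  refine mul_le_mul_of_nonneg_left ?_ (by positivity)
  exact hc2.le_tsum h fun j _ => Finset.sum_nonneg fun g _ => sq_nonneg _

/-- a summable majorant, uniform in the points -/
theorem exists_major (hs : s.Small ρ) {S : Finset Γ} {c : Γ → Γ → ℂ}
    (hc2 : Summable fun h => ∑ g ∈ S, ‖c h g‖ ^ 2) (γ : Γ) :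
    ∃ u : Γ → ℝ, Summable u ∧ ∀ (a : C.I) (γ' : Γ) (b : C.I) (h : Γ) (z w : Cm n),
      z ∈ C.V a → w ∈ C.V b → ‖trm s S c γ a γ' b h z w‖ ≤ u h := by
  obtain ⟨B, hB, hk⟩ := exists_cbound hc2
  refine ⟨fun h => B * ρ (h⁻¹ * γ) * ∑' γ, ρ γ,
    ((summable_rho_inv_mul hs γ).mul_left B).mul_right _, ?_⟩
  intro a γ' b h z w hz hw
  refine (trm_le hs S c γ a γ' b h hz hw).trans ?_
  have h0 : 0 ≤ ∑' γ, ρ γ := tsum_nonneg fun γ => rho_nonneg hs γ
  exact mul_le_mul_of_nonneg_right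
    (mul_le_mul_of_nonneg_right (hk h) (rho_nonneg hs _)) h0

theorem trm_diff (s : HS C m) (S : Finset Γ) (c : Γ → Γ → ℂ) (γ : Γ) (a : C.I) (γ' : Γ)
    (b : C.I) (h : Γ) :
    DifferentiableOn ℂ (fun p : Cm n × Cm n => trm s S c γ a γ' b h p.1 p.2)
      (C.V a ×ˢ C.V b) := by
  unfold trm
  refine DifferentiableOn.fun_sum fun g _ => ?_
  refine DifferentiableOn.const_mul ?_ _
  refine DifferentiableOn.mul ?_ ?_
  · exact (s.holo _ a).comp differentiableOn_fst fun p hp => hp.1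
  · exact (s.holo _ b).comp differentiableOn_snd fun p hp => hp.2

theorem iteratedDeriv_trm (s : HS C m) (S : Finset Γ) (c : Γ → Γ → ℂ) (γ : Γ) (a : C.I)
    (h : Γ) (k : ℕ) (z v : Cm n) (hz : z ∈ C.V a) :
    iteratedDeriv k (fun t : ℂ => trm s S c γ a γ a h z (z + t • v)) 0 =
      ∑ g ∈ S, c h g * (s.F (h⁻¹ * γ) a z *
        iteratedDeriv k (fun t : ℂ => s.F (g⁻¹ * (h⁻¹ * γ)) a (z + t • v)) 0) := by
  have h0 : (0 : ℂ) ∈ {t : ℂ | z + t • v ∈ C.V a} := by simpa using hz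
  have hana : ∀ g : Γ, ContDiffAt ℂ k (fun t : ℂ => s.F (g⁻¹ * (h⁻¹ * γ)) a (z + t • v)) 0 :=
    fun g => ((line_diff s _ a z v).analyticAt ((line_open C a z v).mem_nhds h0)).contDiffAt
  unfold trm
  rw [iteratedDeriv_fun_sum fun g _ => contDiffAt_const.mul (contDiffAt_const.mul (hana g))]
  refine Finset.sum_congr rfl fun g _ => ?_
  rw [iteratedDeriv_const_mul_field, iteratedDeriv_const_mul_field]

theorem d1Stmt : D1Stmt := by
  intro n Γ _ C m s ρ hs hp S c hc0 hc1 hc2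
  refine ⟨sig s S c, ?_, ?_, ?_, ?_, ?_, ?_⟩
  · intro γ a γ' b
    obtain ⟨u, hu, hb⟩ := exists_major hs hc2 γ
    exact differentiableOn_tsum ((isOpen_V C a).prod (isOpen_V C b))
      (fun h => trm_diff s S c γ a γ' b h) hu fun h p hp => hb a γ' b h _ _ hp.1 hp.2
  · intro γ a d γ' b z w hz hza hzd hw
    unfold sig trm
    rw [← tsum_mul_left]
    refine tsum_congr fun h => ?_
    rw [Finset.mul_sum]
    refine Finset.sum_congr rfl fun g _ => ?_
    rw [s.change (h⁻¹ * γ) a d z hz hza hzd, mul_assoc h⁻¹ γ]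
    ring
  · intro γ a γ' b d z w hw hwb hwd hz
    unfold sig trm
    rw [← tsum_mul_left]
    refine tsum_congr fun h => ?_
    rw [Finset.mul_sum]
    refine Finset.sum_congr rfl fun g _ => ?_
    rw [s.change (g⁻¹ * (h⁻¹ * γ')) b d w hw hwb hwd, mul_assoc g⁻¹, mul_assoc h⁻¹]
    ring
  · obtain ⟨a, z, hz, hz0, hsum, hle⟩ := hp
    obtain ⟨γ, γ', h⟩ := peak (α := fun γ => s.F γ a z) hsum hz0 hle hc0 hc1 hc2
    exact ⟨γ, a, γ', a, z, hz, z, hz, h⟩
  · have hP : 0 ≤ ∑' γ, ρ γ := tsum_nonneg fun γ => rho_nonneg hs γ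
    have hC : Summable fun h => (∑ g ∈ S, ‖c h g‖) ^ 2 := by
      refine Summable.of_nonneg_of_le (fun _ => sq_nonneg _) (fun h => ?_)
        (hc2.mul_left (S.card : ℝ))
      exact sq_sum_le_card_mul_sum_sq
    obtain ⟨R, hR0, hR2, hR⟩ := young (rho_nonneg hs) hC hs.1
    refine ⟨fun γ => R γ * ∑' γ, ρ γ, fun γ => mul_nonneg (hR0 γ) hP, ?_, ?_⟩
    · simp only [mul_pow]
      exact hR2.mul_right _
    · intro γ a z hz w hw
      obtain ⟨u, hu, hb⟩ := exists_major hs hc2 γ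
      have hsn : Summable fun h => ‖trm s S c γ a γ a h z w‖ :=
        Summable.of_nonneg_of_le (fun _ => norm_nonneg _) (fun h => hb a γ a h z w hz hw) hu
      refine (norm_tsum_le_tsum_norm hsn).trans ?_
      refine hsn.tsum_le_of_sum_le fun t => ?_
      refine (Finset.sum_le_sum fun h _ => trm_le hs S c γ a γ a h hz hw).trans ?_
      rw [← Finset.sum_mul]
      exact mul_le_mul_of_nonneg_right (hR γ t) hP
  · intro γ a k z hz v
    obtain ⟨u, hu, hb⟩ := exists_major hs hc2 γ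
    have h0 : (0 : ℂ) ∈ {t : ℂ | z + t • v ∈ C.V a} := by simpa using hz
    have h := hasSum_iteratedDeriv (F := fun h (t : ℂ) => trm s S c γ a γ a h z (z + t • v))
      (line_open C a z v) (fun h => ?_) hu (fun h t ht => hb a γ a h z _ hz ht) k h0
    · rw [show (fun t : ℂ => sig s S c γ a γ a z (z + t • v)) =
        fun t : ℂ => ∑' h, trm s S c γ a γ a h z (z + t • v) from rfl, ← h.tsum_eq]
      exact tsum_congr fun h => iteratedDeriv_trm s S c γ a h k z v hz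
    · unfold trm
      refine DifferentiableOn.fun_sum fun g _ => ?_
      exact ((line_diff s _ a z v).const_mul _).const_mul _

end Vale.Agent.P284.H622
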