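import Vale.Agent.P284.H894.Spec2
import Vale.Agent.P284.H622.D1

/-!
# P284, block D1' (helper622): the section `Σ_h Σ_g c(g) (h s) ⊗ (h g s)`, invariant under the
diagonal action of the group.
-/

open scoped Topology
open Filter Set Metric

noncomputable section

namespace Vale.Agent.P284.H622

open Vale.Agent.P272.K Vale.Agent.P284.H894

variable {n : ℕ} {Γ : Type} [Group Γ] {C : Coc n Γ} {m : ℕ} {s : HS C m} {ρ : Γ → ℝ}

theorem exists_major' (hs : s.Small ρ) (S : Finset Γ) (c : Γ → ℂ) (γ : Γ) :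
    ∃ u : Γ → ℝ, Summable u ∧ ∑' h, u h = (∑ g ∈ S, ‖c g‖) * (∑' γ, ρ γ) * ∑' γ, ρ γ ∧
      ∀ (a : C.I) (γ' : Γ) (b : C.I) (h : Γ) (z w : Cm n),
      z ∈ C.V a → w ∈ C.V b → ‖trm s S (fun _ g => c g) γ a γ' b h z w‖ ≤ u h := by
  refine ⟨fun h => (∑ g ∈ S, ‖c g‖) * ρ (h⁻¹ * γ) * ∑' γ, ρ γ,
    ((summable_rho_inv_mul hs γ).mul_left _).mul_right _, ?_, ?_⟩
  · rw [tsum_mul_right, tsum_mul_left]
    congr 2
    exact ((Equiv.inv Γ).trans (Equiv.mulRight γ)).tsum_eq ρ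
  · intro a γ' b h z w hz hw
    exact trm_le hs S (fun _ g => c g) γ a γ' b h hz hw

theorem d1'Stmt : D1'Stmt := by
  intro n Γ _ C m s ρ hs hp S c hc0 hc1
  refine ⟨sig s S fun _ g => c g, ?_, ?_, ?_, ?_, ?_, ?_, ?_⟩
  · intro γ a γ' b
    obtain ⟨u, hu, -, hb⟩ := exists_major' hs S c γ
    exact differentiableOn_tsum ((isOpen_V C a).prod (isOpen_V C b))
      (fun h => trm_diff s S (fun _ g => c g) γ a γ' b h) hu
      fun h p hp => hb a γ' b h _ _ hp.1 hp.2
  · intro δ γ a γ' b z w _ _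
    unfold sig
    rw [← (Equiv.mulLeft δ).tsum_eq]
    refine tsum_congr fun h => ?_
    unfold trm
    refine Finset.sum_congr rfl fun g _ => ?_
    simp [mul_assoc]
  · intro γ a d γ' b z w hz hza hzd hw
    unfold sig trm
    rw [← tsum_mul_left]
    refine tsum_congr fun h => ?_
    rw [Finset.mul_sum]
    refine Finset.sum_congr rfl fun g _ => ?_
    rw [s.change (h⁻¹ * γ) a d z hz hza hzd, mul_assoc h⁻¹ γ]
    ring
  · intro γ a γ' b d z w hw hwb hwd hz
    unfold sig trm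
    rw [← tsum_mul_left]
    refine tsum_congr fun h => ?_
    rw [Finset.mul_sum]
    refine Finset.sum_congr rfl fun g _ => ?_
    rw [s.change (g⁻¹ * (h⁻¹ * γ')) b d w hw hwb hwd, mul_assoc g⁻¹, mul_assoc h⁻¹]
    ring
  · obtain ⟨a, z, hz, hz0, hsum, hle⟩ := hp
    obtain ⟨γ, γ', h⟩ := peak' (α := fun γ => s.F γ a z) hsum hz0 hle hc0 hc1
    exact ⟨γ, a, γ', a, z, hz, z, hz, h⟩
  · refine ⟨(∑ g ∈ S, ‖c g‖) * (∑' γ, ρ γ) * ∑' γ, ρ γ, fun γ a z hz w hw => ?_⟩
    obtain ⟨u, hu, hut, hb⟩ := exists_major' hs S c γ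
    rw [← hut]
    exact tsum_of_norm_bounded hu.hasSum fun h => hb a γ a h z w hz hw
  · intro γ a k z hz v
    obtain ⟨u, hu, -, hb⟩ := exists_major' hs S c γ
    have h0 : (0 : ℂ) ∈ {t : ℂ | z + t • v ∈ C.V a} := by simpa using hz
    have h := hasSum_iteratedDeriv
      (F := fun h (t : ℂ) => trm s S (fun _ g => c g) γ a γ a h z (z + t • v))
      (line_open C a z v) (fun h => ?_) hu (fun h t ht => hb a γ a h z _ hz ht) k h0
    · rw [show (fun t : ℂ => sig s S (fun _ g => c g) γ a γ a z (z + t • v)) =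
        fun t : ℂ => ∑' h, trm s S (fun _ g => c g) γ a γ a h z (z + t • v) from rfl,
        ← h.tsum_eq]
      have h1 : ∀ h, iteratedDeriv k
          (fun t : ℂ => trm s S (fun _ g => c g) γ a γ a h z (z + t • v)) 0 =
          ∑ g ∈ S, c g * (s.F (h⁻¹ * γ) a z *
            iteratedDeriv k (fun t : ℂ => s.F (g⁻¹ * (h⁻¹ * γ)) a (z + t • v)) 0) :=
        fun h => iteratedDeriv_trm s S (fun _ g => c g) γ a h k z v hz
      rw [tsum_congr h1]
      have h2 := ((Equiv.inv Γ).trans (Equiv.mulRight γ)).tsum_eq (fun u : Γ =>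
        ∑ g ∈ S, c g * (s.F u a z *
            iteratedDeriv k (fun t : ℂ => s.F (g⁻¹ * u) a (z + t • v)) 0))
      rw [show (∑' h, ∑ g ∈ S, c g * (s.F (h⁻¹ * γ) a z *
            iteratedDeriv k (fun t : ℂ => s.F (g⁻¹ * (h⁻¹ * γ)) a (z + t • v)) 0)) = _ from h2]
      rw [Summable.tsum_finsetSum fun g _ =>
        (Summable.of_norm (d2Stmt n Γ C m s ρ hs a k g z hz v)).mul_left (c g)]
      exact Finset.sum_congr rfl fun g _ => tsum_mul_left
    · unfold trm
      refine DifferentiableOn.fun_sum fun g _ => ?_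
      exact ((line_diff s _ a z v).const_mul _).const_mul _

end Vale.Agent.P284.H622
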