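import Vale.Agent.P284.H894.G.Spec
import Vale.Agent.P284.H622.D1
import Vale.Agent.P097.H407.Hol

/-!
# P284, block G1 (helper622): a finite combination of translates with a zero of high order
-/

open scoped Topology
open Filter Set Metric

noncomputable section

namespace Vale.Agent.P284.H622

open Vale.Agent.P272.K Vale.Agent.P284.H894 Vale.Agent.P284.H894.G

/-- the type of a word -/
def tp {k n M : ℕ} (hk : k < M) (r : Fin k → Fin n) : Fin n → Fin M := fun j =>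
  ⟨(Finset.univ.filter fun i => r i = j).card,
    lt_of_le_of_lt ((Finset.card_le_univ _).trans_eq (Fintype.card_fin k)) hk⟩

theorem prod_tp {k n M : ℕ} (hk : k < M) (r : Fin k → Fin n) (v : Fin n → ℂ) :
    ∏ i, v (r i) = ∏ j, v j ^ (tp hk r j : ℕ) := by
  classical
  rw [← Finset.prod_fiberwise' Finset.univ r v]
  refine Finset.prod_congr rfl fun j _ => ?_
  simp [tp, Finset.prod_const]

theorem sum_tp {k n M : ℕ} (hk : k < M) (T : (Fin k → Fin n) → ℂ)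
    (hT : ∀ α : Fin n → Fin M, ∑ r ∈ Finset.univ.filter (fun r => tp hk r = α), T r = 0)
    (v : Fin n → ℂ) : ∑ r : Fin k → Fin n, (∏ i, v (r i)) * T r = 0 := by
  classical
  rw [← Finset.sum_fiberwise Finset.univ (tp hk) fun r => (∏ i, v (r i)) * T r]
  refine Finset.sum_eq_zero fun α _ => ?_
  have : ∀ r ∈ Finset.univ.filter (fun r => tp hk r = α),
      (∏ i, v (r i)) * T r = (∏ j, v j ^ (α j : ℕ)) * T r := by
    intro r hr
    rw [prod_tp hk r v, (Finset.mem_filter.1 hr).2]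
  rw [Finset.sum_congr rfl this, ← Finset.mul_sum, hT α, mul_zero]

theorem multi_expand {k n : ℕ} (L : (Cm n) [×k]→L[ℂ] ℂ) (v : Cm n) :
    L (fun _ => v) = ∑ r : Fin k → Fin n, (∏ i, v (r i)) * L (fun i => Pi.single (r i) 1) := by
  classical
  have hv : v = ∑ j, v j • (Pi.single j (1 : ℂ) : Cm n) := by
    ext i
    simp [Finset.sum_apply, Pi.single_apply]
  have h1 : L (fun _ => v) = L (fun _ => ∑ j, v j • (Pi.single j (1 : ℂ) : Cm n)) := by
    rw [← hv]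
  rw [h1, L.map_sum]
  refine Finset.sum_congr rfl fun r _ => ?_
  rw [L.map_smul_univ, smul_eq_mul]

/-- Linear algebra: a nonzero combination killing fewer conditions, normalised. -/
theorem exists_comb {Γ ι : Type*} [Fintype ι] (S : Finset Γ) (hS : Fintype.card ι < S.card)
    (A : ι → Γ → ℂ) : ∃ (c : Γ → ℂ) (g₀ : Γ), g₀ ∈ S ∧ c g₀ = 1 ∧ (∀ g ∈ S, ‖c g‖ ≤ 1) ∧
      ∀ i, ∑ g ∈ S, c g * A i g = 0 := by
  classical
  let Φ : (S → ℂ) →ₗ[ℂ] (ι → ℂ) := Matrix.mulVecLin (Matrix.of fun (i : ι) (g : S) => A i g)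
  have hlt : Module.finrank ℂ (ι → ℂ) < Module.finrank ℂ (S → ℂ) := by
    rw [Module.finrank_fintype_fun_eq_card, Module.finrank_fintype_fun_eq_card,
      Fintype.card_coe]
    exact hS
  have hker := LinearMap.ker_ne_bot_of_finrank_lt (f := Φ) hlt
  obtain ⟨x, hx, hx0⟩ := Submodule.exists_mem_ne_zero_of_ne_bot hker
  have hne : (Finset.univ : Finset S).Nonempty := by
    obtain ⟨g, hg⟩ := Function.ne_iff.1 hx0
    exact ⟨g, Finset.mem_univ _⟩
  obtain ⟨g₀, -, hg₀⟩ := Finset.exists_max_image Finset.univ (fun g : S => ‖x g‖) hne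
  have hpos : x g₀ ≠ 0 := by
    intro h
    apply hx0
    ext g
    have := hg₀ g (Finset.mem_univ _)
    rw [h, norm_zero] at this
    simpa using this
  refine ⟨fun g => if h : g ∈ S then x ⟨g, h⟩ / x g₀ else 0, g₀, g₀.2, ?_, ?_, ?_⟩
  · simp [hpos]
  · intro g hg
    simp only [hg, dif_pos, norm_div]
    exact (div_le_one (norm_pos_iff.2 hpos)).2 (hg₀ ⟨g, hg⟩ (Finset.mem_univ _))
  · intro i
    have hi : ∑ g : S, A i g * x g = 0 := by
      have := congrFun (LinearMap.mem_ker.1 hx) i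
      simpa [Φ, Matrix.mulVec, dotProduct] using this
    rw [← Finset.sum_coe_sort S]
    have : ∀ g : S, (if h : (g : Γ) ∈ S then x ⟨g, h⟩ / x g₀ else 0) * A i g =
        (A i g * x g) / x g₀ := by
      intro g
      simp only [g.2, dif_pos]
      ring
    rw [Finset.sum_congr rfl fun g _ => this g, ← Finset.sum_div, hi, zero_div]

variable {n : ℕ} {Γ : Type} [Group Γ] {C : Coc n Γ} {m : ℕ} {s : HS C m} {ρ : Γ → ℝ}

/-- The combination of the translates. -/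
def comb (s : HS C m) (S : Finset Γ) (c : Γ → ℂ) : HS C m where
  F γ a z := ∑ g ∈ S, c g * s.F (g⁻¹ * γ) a z
  holo γ a := DifferentiableOn.fun_sum fun g _ => (s.holo _ a).const_mul _
  change γ a b z hz hza hzb := by
    rw [Finset.mul_sum]
    refine Finset.sum_congr rfl fun g _ => ?_
    rw [s.change (g⁻¹ * γ) a b z hz hza hzb, mul_assoc g⁻¹ γ]
    ring

theorem comb_le (hs : s.Small ρ) (S : Finset Γ) (c : Γ → ℂ) (hc : ∀ g ∈ S, ‖c g‖ ≤ 1) (γ : Γ)
    (a : C.I) {z : Cm n} (hz : z ∈ C.V a) : ‖(comb s S c).F γ a z‖ ≤ ∑' γ, ρ γ := by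
  have h1 : ‖(comb s S c).F γ a z‖ ≤ ∑ g ∈ S, ρ (g⁻¹ * γ) := by
    refine (norm_sum_le _ _).trans (Finset.sum_le_sum fun g hg => ?_)
    rw [norm_mul]
    calc ‖c g‖ * ‖s.F (g⁻¹ * γ) a z‖ ≤ 1 * ρ (g⁻¹ * γ) :=
          mul_le_mul (hc g hg) (hs.2 _ a z hz) (norm_nonneg _) zero_le_one
      _ = ρ (g⁻¹ * γ) := one_mul _
  refine h1.trans ?_
  have h2 := (summable_rho_inv_mul hs γ).sum_le_tsum S fun g _ => rho_nonneg hs _
  refine h2.trans_eq ?_
  exact ((Equiv.inv Γ).trans (Equiv.mulRight γ)).tsum_eq ρ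

theorem comb_ge {a : C.I} {z : Cm n} (h1 : s.F 1 a z ≠ 0)
    (hsum : Summable (fun γ : Γ => ‖s.F γ a z‖))
    (hle : ∑' γ : Γ, ‖s.F γ a z‖ ≤ (4 / 3) * ‖s.F 1 a z‖)
    (S : Finset Γ) (c : Γ → ℂ) (hc : ∀ g ∈ S, ‖c g‖ ≤ 1) {g₀ : Γ} (hg₀ : g₀ ∈ S)
    (hc1 : c g₀ = 1) : (2 / 3) * ‖s.F 1 a z‖ ≤ ‖(comb s S c).F g₀ a z‖ := by
  classical
  have hsplit : (comb s S c).F g₀ a z =
      s.F 1 a z + ∑ g ∈ S.erase g₀, c g * s.F (g⁻¹ * g₀) a z := by
    change ∑ g ∈ S, c g * s.F (g⁻¹ * g₀) a z = _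
    rw [← Finset.add_sum_erase S _ hg₀, hc1, one_mul, inv_mul_cancel]
  have hrest : ‖∑ g ∈ S.erase g₀, c g * s.F (g⁻¹ * g₀) a z‖ ≤ (1 / 3) * ‖s.F 1 a z‖ := by
    have e1 : ‖∑ g ∈ S.erase g₀, c g * s.F (g⁻¹ * g₀) a z‖ ≤
        ∑ g ∈ S.erase g₀, ‖s.F (g⁻¹ * g₀) a z‖ := by
      refine (norm_sum_le _ _).trans (Finset.sum_le_sum fun g hg => ?_)
      rw [norm_mul]
      calc ‖c g‖ * ‖s.F (g⁻¹ * g₀) a z‖ ≤ 1 * ‖s.F (g⁻¹ * g₀) a z‖ :=
            mul_le_mul_of_nonneg_right (hc g (Finset.mem_of_mem_erase hg)) (norm_nonneg _)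
        _ = ‖s.F (g⁻¹ * g₀) a z‖ := one_mul _
    have hinj : Set.InjOn (fun g : Γ => g⁻¹ * g₀) (S.erase g₀ : Finset Γ) := by
      intro x _ y _ hxy
      simpa using hxy
    have e2 : ∑ g ∈ S.erase g₀, ‖s.F (g⁻¹ * g₀) a z‖ =
        ∑ u ∈ (S.erase g₀).image (fun g => g⁻¹ * g₀), ‖s.F u a z‖ :=
      (Finset.sum_image (f := fun u => ‖s.F u a z‖) hinj).symm
    have hnot : (1 : Γ) ∉ (S.erase g₀).image (fun g => g⁻¹ * g₀) := by
      intro h
      obtain ⟨g, hg, hg1⟩ := Finset.mem_image.1 h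
      have : g = g₀ := by
        have := inv_mul_eq_one.1 hg1
        exact this
      exact (Finset.ne_of_mem_erase hg) this
    have e3 : ‖s.F 1 a z‖ + ∑ u ∈ (S.erase g₀).image (fun g => g⁻¹ * g₀), ‖s.F u a z‖ ≤
        ∑' γ : Γ, ‖s.F γ a z‖ := by
      rw [← Finset.sum_insert (f := fun u => ‖s.F u a z‖) hnot]
      exact hsum.sum_le_tsum _ fun _ _ => norm_nonneg _
    rw [e2] at e1
    linarith
  rw [hsplit]
  have := norm_sub_norm_le (s.F 1 a z) (-∑ g ∈ S.erase g₀, c g * s.F (g⁻¹ * g₀) a z)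
  rw [norm_neg, sub_neg_eq_add] at this
  linarith

theorem g1Stmt : G1Stmt := by
  intro n Γ _ C m s ρ a z hz hs hp
  classical
  obtain ⟨h1, hsum, hle⟩ := hp
  have hρ0 : 0 ≤ ∑' γ, ρ γ := tsum_nonneg fun γ => rho_nonneg hs γ
  refine ⟨(2 / 3) * ‖s.F 1 a z‖, (∑' γ, ρ γ) + 1, by positivity, by positivity, ?_⟩
  intro M S hS
  -- the conditions
  let L : (k : Fin M) × (Fin n → Fin M) → Γ → ℂ := fun i g =>
    ∑ r ∈ Finset.univ.filter (fun r : Fin i.1 → Fin n => tp i.1.2 r = i.2),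
      iteratedFDeriv ℂ (i.1 : ℕ) (s.F (g⁻¹ * 1) a) z (fun j => Pi.single (r j) 1)
  have hcard : Fintype.card ((k : Fin M) × (Fin n → Fin M)) < S.card := by
    rw [Fintype.card_sigma]
    simp only [Fintype.card_pi, Fintype.card_fin, Finset.prod_const, Finset.card_univ,
      Finset.sum_const, smul_eq_mul]
    calc M * M ^ n = M ^ (n + 1) := by ring
      _ < S.card := hS
  obtain ⟨c, g₀, hg₀, hc1, hcle, hc0⟩ := exists_comb S hcard L
  refine ⟨comb s S c, ?_, ?_, g₀, hg₀, comb_ge h1 hsum hle S c hcle hg₀ hc1⟩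
  · intro γ b w hw
    linarith [comb_le hs S c hcle γ b hw]
  · intro k hk v
    have hV : IsOpen (C.V a) := isOpen_V C a
    have hzz : z + (0 : ℂ) • v ∈ C.V a := by simpa using hz
    have hcd : ∀ γ, ContDiffOn ℂ k (s.F γ a) (C.V a) := fun γ =>
      (Vale.Agent.P097.Hol.analyticOnNhd_of_differentiableOn hV (s.holo γ a)).contDiffOn
        hV.uniqueDiffOn
    have hd : ∀ g, iteratedDeriv k (fun t : ℂ => s.F (g⁻¹ * 1) a (z + t • v)) 0 =
        ∑ r : Fin k → Fin n, (∏ i, v (r i)) *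
          iteratedFDeriv ℂ k (s.F (g⁻¹ * 1) a) z (fun j => Pi.single (r j) 1) := by
      intro g
      rw [Vale.Agent.P097.Hol.iteratedDeriv_line hV (hcd _) hzz, zero_smul, add_zero]
      exact multi_expand _ v
    have hline : ContDiff ℂ k (fun t : ℂ => z + t • v) := by fun_prop
    have hca : ∀ g, ContDiffAt ℂ k (fun t : ℂ => c g * s.F (g⁻¹ * 1) a (z + t • v)) 0 := by
      intro g
      refine contDiffAt_const.mul ?_
      refine ContDiffAt.comp (0 : ℂ) ?_ hline.contDiffAt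
      exact (hcd _).contDiffAt (hV.mem_nhds hzz)
    change iteratedDeriv k (fun t : ℂ => ∑ g ∈ S, c g * s.F (g⁻¹ * 1) a (z + t • v)) 0 = 0
    rw [iteratedDeriv_fun_sum fun g _ => hca g]
    have hcm : ∀ g, iteratedDeriv k (fun t : ℂ => c g * s.F (g⁻¹ * 1) a (z + t • v)) 0 =
        c g * ∑ r : Fin k → Fin n, (∏ i, v (r i)) *
          iteratedFDeriv ℂ k (s.F (g⁻¹ * 1) a) z (fun j => Pi.single (r j) 1) := by
      intro g
      rw [iteratedDeriv_const_mul_field, hd g]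
    rw [Finset.sum_congr rfl fun g _ => hcm g]
    have hsw : ∑ g ∈ S, c g * ∑ r : Fin k → Fin n, (∏ i, v (r i)) *
          iteratedFDeriv ℂ k (s.F (g⁻¹ * 1) a) z (fun j => Pi.single (r j) 1) =
        ∑ r : Fin k → Fin n, (∏ i, v (r i)) * ∑ g ∈ S, c g *
          iteratedFDeriv ℂ k (s.F (g⁻¹ * 1) a) z (fun j => Pi.single (r j) 1) := by
      simp only [Finset.mul_sum]
      rw [Finset.sum_comm]
      refine Finset.sum_congr rfl fun r _ => Finset.sum_congr rfl fun g _ => ?_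
      ring
    rw [hsw]
    refine sum_tp hk _ (fun α => ?_) v
    rw [Finset.sum_comm]
    have := hc0 ⟨⟨k, hk⟩, α⟩
    simp only [L, Finset.mul_sum] at this
    exact this

end Vale.Agent.P284.H622
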